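import Vale.Agent.P371.Bdl.B2

/-!
Equality case of `tr (V W V^*)^p ≤ tr W^p` for contractions `V`.
-/

namespace Vale.Agent.P371ET

open Vale.Agent.P371 Vale.Agent.P371.G Vale.Agent.P371.PI

open Matrix
open scoped ComplexOrder Matrix.Norms.L2Operator

variable {n m : ℕ}

theorem tang_lt {p μ w : ℝ} (hp : 1 < p) (hμ : 0 < μ) (hw : 0 ≤ w) (hne : w ≠ μ) :
    0 < w ^ p - μ ^ p - p * (μ ^ p / μ) * (w - μ) := by
  have h1 : -1 ≤ w / μ - 1 := by
    have := div_nonneg hw hμ.le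
    linarith
  have h2 : w / μ - 1 ≠ 0 := by
    intro h
    apply hne
    have h3 : w / μ = 1 := by linarith
    rw [div_eq_one_iff_eq hμ.ne'] at h3
    exact h3
  have h3 := one_add_mul_self_lt_rpow_one_add h1 h2 hp
  have h4 : (1 + (w / μ - 1)) ^ p = w ^ p / μ ^ p := by
    rw [add_sub_cancel, Real.div_rpow hw hμ.le]
  have h5 : 0 < μ ^ p := Real.rpow_pos_of_pos hμ p
  rw [h4, lt_div_iff₀ h5] at h3
  have h6 : p * (μ ^ p / μ) * (w - μ) = p * (w / μ - 1) * μ ^ p := by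
    field_simp
  rw [h6]
  linarith

theorem tang_le {p μ w : ℝ} (hp : 1 < p) (hμ : 0 < μ) (hw : 0 ≤ w) :
    0 ≤ w ^ p - μ ^ p - p * (μ ^ p / μ) * (w - μ) := by
  by_cases h : w = μ
  · rw [h]; simp
  · exact (tang_lt hp hμ hw h).le

theorem jensen_eq {ι : Type*} [Fintype ι] (a w : ι → ℝ) {p μ : ℝ} (hp : 1 < p) (hμ : 0 < μ)
    (ha : ∀ i, 0 ≤ a i) (hs : ∑ i, a i ≤ 1) (hw : ∀ i, 0 ≤ w i) (hm : μ = ∑ i, a i * w i)
    (he : ∑ i, a i * w i ^ p ≤ μ ^ p) : ∑ i, a i = 1 ∧ ∀ i, a i ≠ 0 → w i = μ := by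
  set c := p * (μ ^ p / μ) with hc
  have h5 : 0 < μ ^ p := Real.rpow_pos_of_pos hμ p
  have hcm : c * μ = p * μ ^ p := by rw [hc]; field_simp
  have h1 : ∑ i, a i * (w i ^ p - μ ^ p - c * (w i - μ)) =
      ∑ i, a i * w i ^ p - (∑ i, a i) * μ ^ p - c * μ + (∑ i, a i) * (c * μ) := by
    have e : ∀ i, a i * (w i ^ p - μ ^ p - c * (w i - μ)) =
        a i * w i ^ p - a i * μ ^ p - c * (a i * w i) + a i * (c * μ) := fun i => by ring
    simp only [e, Finset.sum_add_distrib, Finset.sum_sub_distrib, ← Finset.sum_mul,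
      ← Finset.mul_sum, ← hm]
  have h2 : ∀ i, 0 ≤ a i * (w i ^ p - μ ^ p - c * (w i - μ)) := fun i =>
    mul_nonneg (ha i) (tang_le hp hμ (hw i))
  have h3 : 0 ≤ ∑ i, a i * (w i ^ p - μ ^ p - c * (w i - μ)) := Finset.sum_nonneg fun i _ => h2 i
  have h4 : 0 ≤ (1 - ∑ i, a i) * ((p - 1) * μ ^ p) :=
    mul_nonneg (by linarith) (mul_nonneg (by linarith) h5.le)
  have h6 : ∑ i, a i * (w i ^ p - μ ^ p - c * (w i - μ)) + (1 - ∑ i, a i) * ((p - 1) * μ ^ p) ≤ 0 := by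
    rw [h1, hcm]
    nlinarith only [he]
  have h7 : (1 - ∑ i, a i) * ((p - 1) * μ ^ p) = 0 := by linarith
  have h8 : ∑ i, a i * (w i ^ p - μ ^ p - c * (w i - μ)) = 0 := by linarith
  refine ⟨?_, fun i hi => ?_⟩
  · rcases mul_eq_zero.mp h7 with h | h
    · linarith
    · exact absurd h (mul_pos (by linarith) h5).ne'
  · by_contra hne
    have h9 := (Finset.sum_eq_zero_iff_of_nonneg fun i _ => h2 i).mp h8 i (Finset.mem_univ i)
    rcases mul_eq_zero.mp h9 with h | h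
    · exact hi h
    · exact absurd h (tang_lt hp hμ (hw i) hne).ne'

/-- a column of a positive semidefinite matrix with vanishing diagonal entry vanishes -/
theorem col_zero {A : Matrix (Fin n) (Fin n) ℂ} (hA : A.PosSemidef) {j : Fin n}
    (hj : (A j j).re = 0) (i : Fin n) : A i j = 0 := by
  have h0 : A j j = 0 := by
    have h1 := Complex.le_def.mp (hA.diag_nonneg (i := j))
    apply Complex.ext
    · simpa using hj
    · simpa using h1.2.symm
  have h1 : star (Pi.single j (1 : ℂ) : Fin n → ℂ) ⬝ᵥ A *ᵥ (Pi.single j (1 : ℂ)) = 0 := by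
    rw [Matrix.mulVec_single_one]
    simp [h0, dotProduct, Pi.single_apply]
  have h2 := (hA.dotProduct_mulVec_zero_iff _).mp h1
  have h3 := congrFun h2 i
  rw [Matrix.mulVec_single_one] at h3
  exact h3

theorem row_sum (T : Matrix (Fin n) (Fin m) ℂ) (i : Fin n) :
    ((T * Tᴴ) i i).re = ∑ j, Complex.normSq (T i j) := by
  rw [Matrix.mul_apply, Complex.re_sum]
  refine Finset.sum_congr rfl fun j _ => ?_
  rw [Matrix.conjTranspose_apply, Complex.star_def, Complex.mul_conj, Complex.ofReal_re]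

theorem col_sum (T : Matrix (Fin n) (Fin m) ℂ) (j : Fin m) :
    ((Tᴴ * T) j j).re = ∑ i, Complex.normSq (T i j) := by
  rw [Matrix.mul_apply, Complex.re_sum]
  refine Finset.sum_congr rfl fun i _ => ?_
  rw [Matrix.conjTranspose_apply, Complex.star_def, mul_comm, Complex.mul_conj, Complex.ofReal_re]

/-- the diagonal form of the equality case -/
theorem diag_eq {p : ℝ} (hp : 1 < p) {μ : Fin n → ℝ} {w : Fin m → ℝ} (hμ : ∀ i, 0 < μ i)
    (hw : ∀ j, 0 ≤ w j) {T : Matrix (Fin n) (Fin m) ℂ} (h1 : (1 - Tᴴ * T).PosSemidef)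
    (hd : diagonal (fun i => (μ i : ℂ)) = T * diagonal (fun j => (w j : ℂ)) * Tᴴ)
    (he : ∑ j, w j ^ p ≤ ∑ i, μ i ^ p) :
    T * Tᴴ = 1 ∧ diagonal (fun j => (w j : ℂ)) = Tᴴ * diagonal (fun i => (μ i : ℂ)) * T := by
  have h2 := contr_swap h1
  have hmu : ∀ i, μ i = ∑ j, Complex.normSq (T i j) * w j := by
    intro i
    have h3 := congrFun (congrFun hd i) i
    rw [diagonal_apply_eq, Matrix.mul_apply] at h3
    have h4 : ∀ j, (T * diagonal fun i => (w i : ℂ)) i j * Tᴴ j i =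
        ((Complex.normSq (T i j) * w j : ℝ) : ℂ) := by
      intro j
      rw [Matrix.mul_diagonal, Matrix.conjTranspose_apply, Complex.star_def]
      push_cast
      rw [Complex.normSq_eq_conj_mul_self]
      ring
    simp only [h4] at h3
    exact_mod_cast h3
  have hrow : ∀ i, ∑ j, Complex.normSq (T i j) ≤ 1 := fun i => by
    rw [← row_sum]; exact diag_re_le_one h2 i
  have hcol : ∀ j, ∑ i, Complex.normSq (T i j) ≤ 1 := fun j => by
    rw [← col_sum]; exact diag_re_le_one h1 j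
  have a1 : ∀ i, 0 ≤ ∑ j, Complex.normSq (T i j) * w j ^ p - μ i ^ p := fun i => by
    have := rpow_sum_le Finset.univ (fun j => Complex.normSq (T i j)) w hp.le
      (fun j _ => Complex.normSq_nonneg _) (hrow i) (fun j _ => hw j)
    rw [← hmu i] at this
    linarith
  have a2 : ∀ j, 0 ≤ (1 - ∑ i, Complex.normSq (T i j)) * w j ^ p := fun j =>
    mul_nonneg (by linarith [hcol j]) (Real.rpow_nonneg (hw j) _)
  have a3 : ∑ i, (∑ j, Complex.normSq (T i j) * w j ^ p - μ i ^ p) +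
      ∑ j, (1 - ∑ i, Complex.normSq (T i j)) * w j ^ p = ∑ j, w j ^ p - ∑ i, μ i ^ p := by
    rw [Finset.sum_sub_distrib, Finset.sum_comm]
    simp only [sub_mul, one_mul, Finset.sum_sub_distrib, Finset.sum_mul]
    ring
  have b1 : 0 ≤ ∑ i, (∑ j, Complex.normSq (T i j) * w j ^ p - μ i ^ p) :=
    Finset.sum_nonneg fun i _ => a1 i
  have b2 : 0 ≤ ∑ j, (1 - ∑ i, Complex.normSq (T i j)) * w j ^ p :=
    Finset.sum_nonneg fun j _ => a2 j
  have c1 := (Finset.sum_eq_zero_iff_of_nonneg fun i _ => a1 i).mp (by linarith)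
  have c2 := (Finset.sum_eq_zero_iff_of_nonneg fun j _ => a2 j).mp (by linarith)
  have d1 : ∀ i, ∑ j, Complex.normSq (T i j) = 1 ∧
      ∀ j, Complex.normSq (T i j) ≠ 0 → w j = μ i := fun i =>
    jensen_eq (fun j => Complex.normSq (T i j)) w hp (hμ i) (fun j => Complex.normSq_nonneg _)
      (hrow i) hw (hmu i) (by linarith [c1 i (Finset.mem_univ i)])
  have e1 : T * Tᴴ = 1 := by
    have : 1 - T * Tᴴ = 0 := by
      ext i j
      refine col_zero h2 ?_ i
      rw [Matrix.sub_apply, Complex.sub_re, row_sum, (d1 j).1, Matrix.one_apply_eq, Complex.one_re,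
        sub_self]
    exact (sub_eq_zero.mp this).symm
  have e2 : T * diagonal (fun j => (w j : ℂ)) = diagonal (fun i => (μ i : ℂ)) * T := by
    ext i j
    rw [Matrix.mul_diagonal, Matrix.diagonal_mul]
    by_cases h : T i j = 0
    · rw [h, zero_mul, mul_zero]
    · rw [(d1 i).2 j (fun h' => h (Complex.normSq_eq_zero.mp h')), mul_comm]
  have e3 : (1 - Tᴴ * T) * diagonal (fun j => (w j : ℂ)) = 0 := by
    ext i j
    rw [Matrix.mul_diagonal, Matrix.zero_apply]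
    rcases mul_eq_zero.mp (c2 j (Finset.mem_univ j)) with h | h
    · rw [col_zero h1 ?_ i, zero_mul]
      rw [Matrix.sub_apply, Complex.sub_re, col_sum, Matrix.one_apply_eq, Complex.one_re, h]
    · have : w j = 0 := by
        by_contra hne
        exact absurd h (Real.rpow_pos_of_pos (lt_of_le_of_ne (hw j) (Ne.symm hne)) p).ne'
      rw [this, Complex.ofReal_zero, mul_zero]
  refine ⟨e1, ?_⟩
  rw [Matrix.sub_mul, Matrix.one_mul, sub_eq_zero, Matrix.mul_assoc, e2, ← Matrix.mul_assoc] at e3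
  exact e3

/-- Equality case: if `V` is a contraction, `Q = V W V^*` is positive definite and
`tr W^p ≤ tr Q^p`, then `V` is a coisometry and `W = V^* Q V`. -/
theorem conj_eq {p : ℝ} (hp : 1 < p) {W : Matrix (Fin m) (Fin m) ℂ} (hW : W.PosSemidef)
    {V : Matrix (Fin n) (Fin m) ℂ} (h1 : (1 - Vᴴ * V).PosSemidef)
    {Q : Matrix (Fin n) (Fin n) ℂ} (hQ : Q.PosDef) (hV : V * W * Vᴴ = Q)
    (he : trPow p W ≤ trPow p Q) : V * Vᴴ = 1 ∧ W = Vᴴ * Q * V := by
  have hAh := hQ.isHermitian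
  have hWh := hW.isHermitian
  rw [trPow, trPow, dif_pos hAh, dif_pos hWh] at he
  set U1 := (hAh.eigenvectorUnitary : Matrix (Fin n) (Fin n) ℂ) with hU1
  set U2 := (hWh.eigenvectorUnitary : Matrix (Fin m) (Fin m) ℂ) with hU2
  have hu1 : U1ᴴ * U1 = 1 := Unitary.coe_star_mul_self _
  have hu1' : U1 * U1ᴴ = 1 := Unitary.coe_mul_star_self _
  have hu2 : U2ᴴ * U2 = 1 := Unitary.coe_star_mul_self _
  have hu2' : U2 * U2ᴴ = 1 := Unitary.coe_mul_star_self _
  have hs1 : Q = U1 * diagonal (fun i => (hAh.eigenvalues i : ℂ)) * U1ᴴ := by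
    have := hAh.spectral_theorem
    rw [Unitary.conjStarAlgAut_apply] at this
    simp only [Complex.coe_algebraMap, Function.comp_def] at this
    exact this
  have hs2 : W = U2 * diagonal (fun i => (hWh.eigenvalues i : ℂ)) * U2ᴴ := by
    have := hWh.spectral_theorem
    rw [Unitary.conjStarAlgAut_apply] at this
    simp only [Complex.coe_algebraMap, Function.comp_def] at this
    exact this
  generalize hD1 : diagonal (fun i => (hAh.eigenvalues i : ℂ)) = D1 at hs1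
  generalize hD2 : diagonal (fun i => (hWh.eigenvalues i : ℂ)) = D2 at hs2
  obtain ⟨T, hT⟩ : ∃ T : Matrix (Fin n) (Fin m) ℂ, T = U1ᴴ * V * U2 := ⟨_, rfl⟩
  have hTs : Tᴴ = U2ᴴ * Vᴴ * U1 := by
    rw [hT, Matrix.conjTranspose_mul, Matrix.conjTranspose_mul, conjTranspose_conjTranspose,
      Matrix.mul_assoc]
  have hVT : V = U1 * T * U2ᴴ := by
    rw [hT]
    calc V = (U1 * U1ᴴ) * V * (U2 * U2ᴴ) := by rw [hu1', hu2', Matrix.one_mul, Matrix.mul_one]
      _ = _ := by simp only [Matrix.mul_assoc]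
  have hVs : Vᴴ = U2 * Tᴴ * U1ᴴ := by
    rw [hVT, Matrix.conjTranspose_mul, Matrix.conjTranspose_mul, conjTranspose_conjTranspose,
      Matrix.mul_assoc]
  have hd : D1 = T * D2 * Tᴴ := by
    calc D1 = (U1ᴴ * U1) * D1 * (U1ᴴ * U1) := by rw [hu1, Matrix.one_mul, Matrix.mul_one]
      _ = U1ᴴ * Q * U1 := by rw [hs1]; simp only [Matrix.mul_assoc]
      _ = U1ᴴ * (V * (U2 * D2 * U2ᴴ) * Vᴴ) * U1 := by rw [← hV, ← hs2]
      _ = _ := by rw [hTs, hT]; simp only [Matrix.mul_assoc]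
  have h4 : (1 - Tᴴ * T).PosSemidef := by
    have h3 : Tᴴ * T = U2ᴴ * (Vᴴ * V) * U2 := by
      rw [hTs, hT]
      calc U2ᴴ * Vᴴ * U1 * (U1ᴴ * V * U2) = U2ᴴ * Vᴴ * (U1 * U1ᴴ) * V * U2 := by
            simp only [Matrix.mul_assoc]
        _ = _ := by rw [hu1']; simp only [Matrix.mul_assoc, Matrix.one_mul]
    have h5 := h1.conjTranspose_mul_mul_same U2
    rw [mul_sub, sub_mul, mul_one, hu2, ← h3] at h5
    exact h5
  obtain ⟨e1, e2⟩ := diag_eq hp (fun i => hQ.eigenvalues_pos i) (fun j => hW.eigenvalues_nonneg j)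
    h4 (by rw [hD1, hD2]; exact hd) he
  rw [hD1, hD2] at e2
  constructor
  · rw [hVs]
    nth_rewrite 1 [hVT]
    calc U1 * T * U2ᴴ * (U2 * Tᴴ * U1ᴴ) = U1 * T * (U2ᴴ * U2) * Tᴴ * U1ᴴ := by
          simp only [Matrix.mul_assoc]
      _ = U1 * (T * Tᴴ) * U1ᴴ := by rw [hu2]; simp only [Matrix.mul_assoc, Matrix.one_mul]
      _ = 1 := by rw [e1, Matrix.mul_one, hu1']
  · calc W = U2 * (Tᴴ * D1 * T) * U2ᴴ := by rw [← e2, ← hs2]
      _ = U2 * Tᴴ * (U1ᴴ * U1) * D1 * (U1ᴴ * U1) * T * U2ᴴ := by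
          rw [hu1]; simp only [Matrix.mul_assoc, Matrix.one_mul]
      _ = (U2 * Tᴴ * U1ᴴ) * (U1 * D1 * U1ᴴ) * (U1 * T * U2ᴴ) := by simp only [Matrix.mul_assoc]
      _ = _ := by rw [← hVs, ← hVT, ← hs1]

end Vale.Agent.P371ET
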