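import Vale.Agent.P371E.Spec
import Vale.Agent.P371ET.Core

/-!
The block `PT`.
-/

namespace Vale.Agent.P371ET

theorem pt : Vale.Agent.P371E.PT := fun _ _ _ _ _ hp hW h1 hQ he =>
  conj_eq hp hW h1 hQ rfl he

end Vale.Agent.P371ET
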