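import Vale.Agent.P371ET.Lin

/-!
The block `STR`.
-/

namespace Vale.Agent.P371ET

open Vale.Agent.P371 Vale.Agent.P371.G Vale.Agent.P371.PI Vale.Agent.P371E

open MeasureTheory Filter Topology Matrix
open scoped ComplexOrder Matrix.Norms.L2Operator

variable {N m : ℕ}

theorem sS_pos (ν k c x : ℝ) : 0 < sS ν k c x := psi_pos _ _

theorem wS_pos {ν k : ℝ} (hν : 0 < ν) (hk : 0 < k) (c x : ℝ) : 0 < wS ν k c x :=
  mul_pos (pow_pos hk 2) (mul_pos (by positivity) (sech2_pos _ _))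

theorem hasDerivAt_lin (k c x : ℝ) : HasDerivAt (fun x => k * (x - c)) k x := by
  simpa using ((hasDerivAt_id x).sub_const c).const_mul k

theorem hasDerivAt_sS {ν : ℝ} (hν : 0 < ν) (k c x : ℝ) :
    HasDerivAt (sS ν k c) (gS ν k c x * sS ν k c x) x := by
  have h := (hasDerivAt_psi (q := 1 / ν) (by positivity) (k * (x - c))).comp x (hasDerivAt_lin k c x)
  refine h.congr_deriv ?_
  unfold gS sS
  ring

theorem hasDerivAt_sS' {ν : ℝ} (hν : 0 < ν) (k c x : ℝ) :
    HasDerivAt (fun x => gS ν k c x * sS ν k c x) ((k ^ 2 - wS ν k c x) * sS ν k c x) x := by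
  have h := ((hasDerivAt_psi' (q := 1 / ν) (by positivity) (k * (x - c))).comp x
    (hasDerivAt_lin k c x)).const_mul k
  have e : (fun x => gS ν k c x * sS ν k c x) = fun x => k * ((fun x => -(tn (1 / ν) x *
      psi (1 / ν) x)) ∘ fun x => k * (x - c)) x := by
    funext y
    simp only [gS, sS, Function.comp_apply]
    ring
  rw [e]
  refine h.congr_deriv ?_
  unfold wS sS
  ring

theorem continuous_wS (ν k c : ℝ) : Continuous (wS ν k c) := by
  unfold wS
  exact continuous_const.mul (continuous_const.mul ((sech2_continuous _).comp (by fun_prop)))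

theorem continuous_sS (ν k c : ℝ) : Continuous (sS ν k c) := by
  unfold sS
  exact (continuous_psi _).comp (by fun_prop)

theorem integrable_wS {ν k : ℝ} (hν : 0 < ν) (hk : 0 < k) (c : ℝ) :
    Integrable (wS ν k c) volume := by
  have h := (sech2_beta (q := 1 / ν) (p := 1) (by positivity) one_pos).1
  simp only [Real.rpow_one] at h
  exact (((h.comp_mul_left' hk.ne').comp_sub_right c).const_mul _).const_mul _

/-- the eigenvalue equation in matrix form -/
theorem eig_mat (hE : EIG) {ν : ℝ} (hν : 0 < ν) {W : ℝ → Mat m m} (hW : LocallyIntegrable W volume)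
    {lam : Fin N → ℝ} {f f' : Fin N → ℝ → Vec m} (hS : Sys W lam f f') {r R : Mat N N}
    (hr : r * R = 1) {k c : Fin N → ℝ} {C : Mat m N}
    (h : ∀ x, psiM f x * r = C * dg fun i => sS ν (k i) (c i) x) :
    ∀ᵐ x, W x * psiM f x = psiM f x * Lam lam -
      C * dg (fun i => (k i ^ 2 - wS ν (k i) (c i) x) * sS ν (k i) (c i) x) * R := by
  let vec : Fin N → Fin N → Vec m := fun i j => WithLp.toLp 2 fun a => C a i * R i j
  have hv : ∀ (d : Fin N → ℝ) (j : Fin N) (a : Fin m),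
      (∑ i, ((d i : ℝ) : ℂ) • vec i j) a = (C * dg d * R) a j := by
    intro d j a
    rw [Matrix.mul_apply, WithLp.ofLp_sum, Finset.sum_apply]
    refine Finset.sum_congr rfl fun i _ => ?_
    rw [dg, Matrix.mul_diagonal]
    simp only [vec, WithLp.ofLp_smul, Pi.smul_apply, smul_eq_mul]
    ring
  have hf : ∀ j, f j = fun x => ∑ i, ((sS ν (k i) (c i) x : ℝ) : ℂ) • vec i j := by
    intro j
    funext x
    ext a
    rw [hv, ← h x, Matrix.mul_assoc, hr, Matrix.mul_one]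
    rfl
  have h1 : ∀ j, ∀ᵐ x, Matrix.toEuclideanLin (W x) (f j x) =
      -(∑ i, (((k i ^ 2 - wS ν (k i) (c i) x) * sS ν (k i) (c i) x : ℝ) : ℂ) • vec i j) -
        (lam j : ℂ) • f j x := by
    intro j
    refine hE m W (lam j) (f j) (f' j)
      (fun x => ∑ i, ((gS ν (k i) (c i) x * sS ν (k i) (c i) x : ℝ) : ℂ) • vec i j) _ hW (hS.eig j)
      (fun x => ?_) (fun x => ?_) ?_
    · rw [hf j]
      exact HasDerivAt.fun_sum fun i _ => (hasDerivAt_sS hν (k i) (c i) x).ofReal_comp.smul_const _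
    · exact HasDerivAt.fun_sum fun i _ => (hasDerivAt_sS' hν (k i) (c i) x).ofReal_comp.smul_const _
    · refine continuous_finsetSum _ fun i _ => ?_
      exact (Complex.continuous_ofReal.comp
        ((continuous_const.sub (continuous_wS ν (k i) (c i))).mul (continuous_sS ν (k i) (c i)))).smul
        continuous_const
  filter_upwards [ae_all_iff.mpr h1] with x hx
  ext a j
  have h2 := congrArg (fun v : Vec m => v a) (hx j)
  simp only [PiLp.sub_apply, PiLp.neg_apply, PiLp.smul_apply, smul_eq_mul] at h2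
  rw [hv] at h2
  have h3 : (W x * psiM f x) a j = Matrix.toEuclideanLin (W x) (f j x) a := rfl
  have h4 : (psiM f x * Lam lam) a j = f j x a * ((-lam j : ℝ) : ℂ) := by
    rw [Lam, dg, Matrix.mul_diagonal]
    rfl
  rw [h3, h2, Matrix.sub_apply, h4]
  push_cast
  ring

/-- equality of the traces almost everywhere -/
theorem tr_ae (hS : SOL) {γ : ℝ} (hγ : 1 / 2 < γ) {W : ℝ → Mat m m} (hW : IsPotential (γ + 1 / 2) W)
    {k c : Fin N → ℝ} (hk : ∀ i, 0 < k i) (h1 : Cg γ * II γ W ≤ ∑ i, k i ^ (2 * γ))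
    (h2 : ∀ᵐ x, trPow (γ + 1 / 2) (dg fun i => wS (γ - 1 / 2) (k i) (c i) x) ≤
      trPow (γ + 1 / 2) (W x)) :
    ∀ᵐ x, trPow (γ + 1 / 2) (W x) ≤
      trPow (γ + 1 / 2) (dg fun i => wS (γ - 1 / 2) (k i) (c i) x) := by
  simp only [trPow_dg] at h2 ⊢
  have i1 : Integrable (fun x => ∑ i, wS (γ - 1 / 2) (k i) (c i) x ^ (γ + 1 / 2)) volume :=
    integrable_finsetSum _ fun i _ => (hS γ (k i) (c i) hγ (hk i)).1
  have e1 : Cg γ * ∫ x, ∑ i, wS (γ - 1 / 2) (k i) (c i) x ^ (γ + 1 / 2) = ∑ i, k i ^ (2 * γ) := by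
    rw [integral_finsetSum _ fun i _ => (hS γ (k i) (c i) hγ (hk i)).1, Finset.mul_sum]
    exact Finset.sum_congr rfl fun i _ => (hS γ (k i) (c i) hγ (hk i)).2
  have e2 : II γ W ≤ ∫ x, ∑ i, wS (γ - 1 / 2) (k i) (c i) x ^ (γ + 1 / 2) :=
    le_of_mul_le_mul_left (by rw [e1]; exact h1) (Cg_pos hγ)
  have e3 := (integral_eq_iff_of_ae_le i1 hW.integrable h2).mp
    (le_antisymm (integral_mono_ae i1 hW.integrable h2) e2)
  filter_upwards [e3] with x hx
  exact hx.ge

theorem const_zero {ν : ℝ} (hν : 0 < ν) {k c : Fin N → ℝ} (hk : ∀ i, 0 < k i) {M : Mat N N} {z : ℂ}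
    (h : ∀ᵐ x, z + 2 * (dg (fun i => wS ν (k i) (c i) x) * M).trace = 0) : z = 0 := by
  have i1 : Integrable (fun x => -(2 * ∑ i, ((wS ν (k i) (c i) x : ℝ) : ℂ) * M i i)) volume :=
    ((integrable_finsetSum _ fun i _ =>
      (integrable_wS hν (hk i) (c i)).ofReal.mul_const (M i i)).const_mul 2).neg
  have i2 : Integrable (fun _ : ℝ => z) volume := by
    refine i1.congr ?_
    filter_upwards [h] with x hx
    have e : (dg (fun i => wS ν (k i) (c i) x) * M).trace =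
        ∑ i, ((wS ν (k i) (c i) x : ℝ) : ℂ) * M i i := by
      simp only [Matrix.trace, Matrix.diag_apply, dg, Matrix.diagonal_mul]
    rw [e] at hx
    linear_combination -hx
  rcases integrable_const_iff.mp i2 with h0 | h0
  · exact h0
  · exact absurd (measure_lt_top (volume : Measure ℝ) Set.univ) (by simp)

theorem str_of (hL : LIM) (hP : PT) (hS : SOL) (hE : EIG) : STR := by
  intro γ hγ hγ1 m N W lam f f' hW hs he
  obtain ⟨r, k, c, C, hr, hk, ⟨H, hH, hrH⟩, hle, hΦ, hV⟩ := hL γ hγ hγ1 m N W lam f f' hW hs he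
  have hν : 0 < γ - 1 / 2 := by linarith
  have hp : 1 < γ + 1 / 2 := by linarith
  obtain ⟨R, hR⟩ : ∃ R, r * R = 1 := hr.exists_right_inv
  have hR' : R * r = 1 := mul_eq_one_comm.mp hR
  have a1 := tr_ae hS hγ hW (c := c) hk (he ▸ hle) (by
    filter_upwards [hV] with x ⟨V, h1, h2, _⟩
    rw [← h2]
    exact trPow_conj_le hp.le (hW.posSemidef x) h1 (contr_swap h1))
  obtain ⟨M, hM⟩ : ∃ M, M = R * Lam lam * r - dg fun i => k i ^ 2 := ⟨_, rfl⟩
  have a2 : ∀ᵐ x, W x * (C * dg fun i => sS (γ - 1 / 2) (k i) (c i) x) =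
      (C * dg fun i => sS (γ - 1 / 2) (k i) (c i) x) *
        (dg (fun i => wS (γ - 1 / 2) (k i) (c i) x) + M) := by
    filter_upwards [eig_mat hE hν (locInt hp.le hW) hs hR hΦ] with x hx
    have e1 : dg (fun i => (k i ^ 2 - wS (γ - 1 / 2) (k i) (c i) x) * sS (γ - 1 / 2) (k i) (c i) x) =
        dg (fun i => sS (γ - 1 / 2) (k i) (c i) x) * (dg (fun i => k i ^ 2) -
          dg (fun i => wS (γ - 1 / 2) (k i) (c i) x)) := by
      rw [mul_sub, dg_mul, dg_mul, dg, dg, dg, diagonal_sub]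
      congr 1
      funext i
      push_cast
      ring
    have e2 : psiM f x = (C * dg fun i => sS (γ - 1 / 2) (k i) (c i) x) * R := by
      rw [← hΦ x, Matrix.mul_assoc, hR, Matrix.mul_one]
    nth_rewrite 1 [← hΦ x]
    rw [← Matrix.mul_assoc, hx, e1, hM, Matrix.sub_mul, Matrix.mul_assoc _ R r, hR', Matrix.mul_one,
      e2]
    simp only [Matrix.mul_add, Matrix.mul_sub, Matrix.mul_assoc]
    abel
  have a3 : ∀ᵐ x, ∃ V : Mat N m, V * Vᴴ = 1 ∧
      W x = Vᴴ * dg (fun i => wS (γ - 1 / 2) (k i) (c i) x) * V ∧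
      IsUnit (V * (C * dg fun i => sS (γ - 1 / 2) (k i) (c i) x)) := by
    filter_upwards [hV, a1] with x ⟨V, h1, h2, h3⟩ h4
    obtain ⟨e1, e2⟩ := hP _ m N (W x) V hp (hW.posSemidef x) h1
      (by rw [h2]; exact dg_posDef fun i => wS_pos hν (hk i) _ _) (by rw [h2]; exact h4)
    rw [h2] at e2
    refine ⟨V, e1, e2, ?_⟩
    rw [← hΦ x, ← Matrix.mul_assoc]
    exact (unit_A e1 h3).mul hr
  have a4 : (M * M).trace = 0 := by
    refine const_zero hν hk (c := c) (M := M) ?_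
    filter_upwards [a2, a3] with x h1 ⟨V, e1, e2, e3⟩
    refine tr_eq e3 ?_
    rw [Matrix.mul_assoc V, ← h1, e2]
    simp only [← Matrix.mul_assoc, e1, Matrix.one_mul]
  have a5 : M = 0 := by
    rw [hM] at a4 ⊢
    exact M_zero hR hH (dg_ct _) (dg_ct _) hrH a4
  have a6 : ∀ᵐ x, ∃ (V : Mat N m) (B : Mat N N), V * Vᴴ = 1 ∧
      W x = Vᴴ * dg (fun i => wS (γ - 1 / 2) (k i) (c i) x) * V ∧ IsUnit B ∧ C = Vᴴ * B ∧
      B * dg (fun i => wS (γ - 1 / 2) (k i) (c i) x) =
        dg (fun i => wS (γ - 1 / 2) (k i) (c i) x) * B := by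
    filter_upwards [a2, a3] with x h1 ⟨V, e1, e2, e3⟩
    rw [a5, add_zero] at h1
    obtain ⟨B, b1, b2, b3⟩ := factor (fun i => (sS_pos _ _ _ _).ne')
      (fun i => (wS_pos hν (hk i) _ _).ne') e1 e2 e3 h1
    exact ⟨V, B, e1, e2, b1, b2, b3⟩
  obtain ⟨x0, V0, B0, v1, -, b1, b2, -⟩ := a6.exists
  have hC : (Cᴴ * C).PosDef := by
    rw [gram_eq v1 b2]
    exact gram_posDef b1
  obtain ⟨S, s1, s2, s3⟩ := exists_invsqrt hC
  refine ⟨C * S, k, c, isom s1 s2, hk, ?_⟩
  filter_upwards [a6] with x ⟨V, B, e1, e2, _, e4, e5⟩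
  rw [e2]
  exact recon e1 e4 (dg_ct _) e5 s1 s2 s3

end Vale.Agent.P371ET
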