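import Vale.Agent.P371E.Spec

/-!
Linear algebra for the block `STR`.
-/

namespace Vale.Agent.P371ET

open Vale.Agent.P371 Vale.Agent.P371.G Vale.Agent.P371.PI Vale.Agent.P371E

open Matrix
open scoped ComplexOrder Matrix.Norms.L2Operator

variable {N m : ℕ}

theorem dg_mul (d e : Fin N → ℝ) : dg d * dg e = dg fun i => d i * e i := by
  rw [dg, dg, dg, diagonal_mul_diagonal]
  simp only [Complex.ofReal_mul]

theorem dg_comm (d e : Fin N → ℝ) : dg d * dg e = dg e * dg d := by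
  rw [dg_mul, dg_mul]
  simp only [mul_comm]

theorem dg_ct (d : Fin N → ℝ) : (dg d)ᴴ = dg d := by
  rw [dg, diagonal_conjTranspose]
  congr 1
  funext i
  simp

theorem dg_inv {d : Fin N → ℝ} (h : ∀ i, d i ≠ 0) : dg d * dg (fun i => (d i)⁻¹) = 1 := by
  rw [dg_mul, dg, ← diagonal_one]
  congr 1
  funext i
  rw [mul_inv_cancel₀ (h i), Complex.ofReal_one]

theorem dg_posDef {d : Fin N → ℝ} (h : ∀ i, 0 < d i) : (dg d).PosDef :=
  posDef_diagonal_iff.mpr fun i => by exact_mod_cast h i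

theorem trPow_dg (p : ℝ) (d : Fin N → ℝ) : trPow p (dg d) = ∑ i, d i ^ p := trPow_diagonal p d

theorem unit_A {V : Mat N m} {Ψ : Mat m N} (h1 : V * Vᴴ = 1)
    (h2 : ∀ ξ : Fin m → ℂ, Ψᴴ *ᵥ ξ = 0 → V *ᵥ ξ = 0) : IsUnit (V * Ψ) := by
  have h3 : IsUnit (V * Ψ)ᴴ := by
    rw [← mulVec_injective_iff_isUnit]
    intro ξ η h
    have h4 : Ψᴴ *ᵥ (Vᴴ *ᵥ (ξ - η)) = 0 := by
      rw [mulVec_mulVec, ← conjTranspose_mul, mulVec_sub]
      exact sub_eq_zero.mpr h
    have h5 := h2 _ h4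
    rw [mulVec_mulVec, h1, one_mulVec] at h5
    exact sub_eq_zero.mp h5
  have h6 := h3.star
  rwa [star_eq_conjTranspose, conjTranspose_conjTranspose] at h6

theorem tr_eq {A Q M : Mat N N} (hA : IsUnit A) (h : Q * A = A * (Q + M)) :
    (M * M).trace + 2 * (Q * M).trace = 0 := by
  obtain ⟨u, rfl⟩ := hA
  have e1 : Q * Q * u = u * ((Q + M) * (Q + M)) := by
    rw [mul_assoc, h, ← mul_assoc, h, mul_assoc]
  have e2 : (Q * Q).trace = ((Q + M) * (Q + M)).trace := by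
    calc (Q * Q).trace = (Q * Q * u * (u⁻¹ : (Mat N N)ˣ)).trace := by
          rw [mul_assoc, Units.mul_inv, mul_one]
      _ = ((u⁻¹ : (Mat N N)ˣ) * (u * ((Q + M) * (Q + M))) : Mat N N).trace := by
          rw [e1, trace_mul_comm]
      _ = _ := by rw [← mul_assoc, Units.inv_mul, one_mul]
  rw [add_mul, mul_add, mul_add, trace_add, trace_add, trace_add, trace_mul_comm M Q] at e2
  linear_combination -e2

theorem herm_zero {X : Mat N N} (hX : X.IsHermitian) (h : (X * X).trace = 0) : X = 0 := by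
  rw [← trace_conjTranspose_mul_self_eq_zero_iff, hX.eq]
  exact h

theorem M_zero {r R H L D : Mat N N} (h1 : r * R = 1) (hH : H.IsHermitian) (hL : L.IsHermitian)
    (hD : D.IsHermitian) (h : r * D = H * r ∨ L * r = r * H)
    (h0 : ((R * L * r - D) * (R * L * r - D)).trace = 0) : R * L * r - D = 0 := by
  have h2 : R * r = 1 := mul_eq_one_comm.mp h1
  rcases h with h | h
  · have e1 : R * L * r - D = R * (L - H) * r := by
      rw [mul_sub, sub_mul, mul_assoc R H r, ← h, ← mul_assoc, h2, one_mul]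
    rw [e1] at h0 ⊢
    have e2 : R * (L - H) * r * (R * (L - H) * r) = R * ((L - H) * (L - H) * r) := by
      calc R * (L - H) * r * (R * (L - H) * r) = R * (L - H) * (r * R) * (L - H) * r := by
            simp only [mul_assoc]
        _ = _ := by rw [h1]; simp only [mul_assoc, one_mul]
    rw [e2, trace_mul_comm, mul_assoc, h1, mul_one] at h0
    rw [herm_zero (hL.sub hH) h0, mul_zero, zero_mul]
  · have e1 : R * L * r = H := by rw [mul_assoc, h, ← mul_assoc, h2, one_mul]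
    rw [e1] at h0 ⊢
    exact herm_zero (hH.sub hD) h0

theorem exists_invsqrt {P : Mat N N} (hP : P.PosDef) : ∃ S : Mat N N, Sᴴ = S ∧ S * S * P = 1 ∧
    ∀ Q, P * Q = Q * P → S * Q = Q * S := by
  have h0 : (cfc (fun t : ℝ => (√t)⁻¹) P).IsHermitian := cfc_predicate (R := ℝ) _ _
  refine ⟨cfc (fun t : ℝ => (√t)⁻¹) P, h0.eq, ?_, fun Q hQ => ?_⟩
  · have hZh : IsSelfAdjoint P := hP.isHermitian
    have hc := continuousOn_invsqrt (s := spectrum ℝ P) fun x hx => spectrum_pos hP hx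
    have h1 : P = cfc (fun x : ℝ => x) P := (cfc_id_eq hP.isHermitian).symm
    conv_lhs => arg 2; rw [h1]
    rw [← cfc_mul (fun t : ℝ => (√t)⁻¹) (fun t : ℝ => (√t)⁻¹) P hc hc,
      ← cfc_mul (fun t : ℝ => (√t)⁻¹ * (√t)⁻¹) (fun t : ℝ => t) P (hc.mul hc) continuousOn_id,
      ← cfc_one_eq hP.isHermitian]
    refine cfc_congr fun x hx => ?_
    have hx0 := spectrum_pos hP hx
    have h2 : √x * √x = x := Real.mul_self_sqrt hx0.le
    rw [← mul_inv, h2, inv_mul_cancel₀ hx0.ne']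
  · have h : Commute P Q := hQ
    exact (h.cfc_real _).eq

/-- at a good point, `C = V^* B` with `B` invertible and commuting with `Q` -/
theorem factor {W : Mat m m} {V : Mat N m} {C : Mat m N} {s w : Fin N → ℝ} (hs : ∀ i, s i ≠ 0)
    (hw : ∀ i, w i ≠ 0) (h1 : V * Vᴴ = 1) (h2 : W = Vᴴ * dg w * V) (h3 : IsUnit (V * (C * dg s)))
    (h4 : W * (C * dg s) = C * dg s * dg w) :
    ∃ B : Mat N N, IsUnit B ∧ C = Vᴴ * B ∧ B * dg w = dg w * B := by
  have e0 : W * C = C * dg w := by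
    have := congrArg (fun X : Mat m N => X * dg (fun i => (s i)⁻¹)) h4
    rw [Matrix.mul_assoc C, dg_comm s w, Matrix.mul_assoc W, Matrix.mul_assoc C,
      Matrix.mul_assoc C, Matrix.mul_assoc (dg w), dg_inv hs, Matrix.mul_one, Matrix.mul_one] at this
    exact this
  have e1 : V * C * dg w = dg w * (V * C) := by
    rw [Matrix.mul_assoc, ← e0, h2]
    calc V * (Vᴴ * dg w * V * C) = V * Vᴴ * dg w * V * C := by simp only [Matrix.mul_assoc]
      _ = _ := by rw [h1, Matrix.one_mul, Matrix.mul_assoc]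
  refine ⟨V * C, ?_, ?_, e1⟩
  · rw [← Matrix.mul_assoc] at h3
    exact isUnit_of_mul_isUnit_left h3
  · have e2 : C * dg w = Vᴴ * (V * C) * dg w := by
      rw [Matrix.mul_assoc Vᴴ, e1, ← e0, h2]
      simp only [Matrix.mul_assoc]
    have := congrArg (fun X : Mat m N => X * dg (fun i => (w i)⁻¹)) e2
    rwa [Matrix.mul_assoc, Matrix.mul_assoc (Vᴴ * (V * C)), dg_inv hw, Matrix.mul_one,
      Matrix.mul_one] at this

theorem gram_eq {V : Mat N m} {C : Mat m N} {B : Mat N N} (h1 : V * Vᴴ = 1) (h2 : C = Vᴴ * B) :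
    Cᴴ * C = Bᴴ * B := by
  rw [h2, conjTranspose_mul, conjTranspose_conjTranspose]
  calc Bᴴ * V * (Vᴴ * B) = Bᴴ * (V * Vᴴ) * B := by simp only [Matrix.mul_assoc]
    _ = _ := by rw [h1, Matrix.mul_one]

theorem recon {V : Mat N m} {C : Mat m N} {B S Q : Mat N N} (h1 : V * Vᴴ = 1) (h2 : C = Vᴴ * B)
    (hQ : Qᴴ = Q) (h3 : B * Q = Q * B) (hS : Sᴴ = S) (h4 : S * S * (Cᴴ * C) = 1)
    (h5 : ∀ Q, Cᴴ * C * Q = Q * (Cᴴ * C) → S * Q = Q * S) :
    Vᴴ * Q * V = C * S * Q * (C * S)ᴴ := by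
  have e0 := gram_eq h1 h2
  have e1 : Bᴴ * Q = Q * Bᴴ := by
    have := congrArg conjTranspose h3
    rw [conjTranspose_mul, conjTranspose_mul, hQ] at this
    exact this.symm
  have e2 : S * Q = Q * S := by
    apply h5
    rw [e0, mul_assoc, h3, ← mul_assoc, e1, mul_assoc]
  have e3 : B * (S * S * Bᴴ) = 1 := by
    rw [e0, ← mul_assoc] at h4
    exact mul_eq_one_comm.mp h4
  have e4 : B * S * Q * (S * Bᴴ) = Q := by
    calc B * S * Q * (S * Bᴴ) = B * (S * Q) * (S * Bᴴ) := by simp only [mul_assoc]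
      _ = B * Q * (S * S * Bᴴ) := by rw [e2]; simp only [mul_assoc]
      _ = Q * (B * (S * S * Bᴴ)) := by rw [h3, mul_assoc]
      _ = Q := by rw [e3, mul_one]
  rw [conjTranspose_mul, hS, h2, conjTranspose_mul, conjTranspose_conjTranspose]
  conv_lhs => rw [← e4]
  simp only [Matrix.mul_assoc]

theorem isom {C : Mat m N} {S : Mat N N} (hS : Sᴴ = S) (h4 : S * S * (Cᴴ * C) = 1) :
    (C * S)ᴴ * (C * S) = 1 := by
  rw [mul_assoc] at h4
  have h := mul_eq_one_comm.mp h4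
  rw [conjTranspose_mul, hS, ← h]
  simp only [Matrix.mul_assoc]

theorem gram_posDef {B : Mat N N} (hB : IsUnit B) : (Bᴴ * B).PosDef :=
  PosDef.conjTranspose_mul_self B (mulVec_injective_iff_isUnit.mpr hB)

end Vale.Agent.P371ET
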